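import Mathlib.Analysis.Analytic.Basic
import Mathlib.Analysis.Complex.Basic
import Mathlib.Analysis.Complex.OpenMapping
import Mathlib.Analysis.Normed.Field.Lemmas
import Mathlib.Topology.Compactification.OnePoint.ProjectiveLine
import Mathlib.Topology.Connected.TotallyDisconnected
import Mathlib.Topology.Separation.Profinite
import Vale.Agent.P116.Defs

set_option linter.all false

section

open Set Topology OnePoint Filter

namespace Vale.Agent.P116

lemma recip_coe_zero : recip ((0 : ℂ) : OnePoint ℂ) = ∞ := by simp [recip]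

lemma recip_coe {z : ℂ} (hz : z ≠ 0) : recip (z : OnePoint ℂ) = ((z⁻¹ : ℂ) : OnePoint ℂ) := by
  simp [recip, hz]

lemma recip_infty : recip ∞ = ((0 : ℂ) : OnePoint ℂ) := by simp [recip]

lemma recip_recip (p : OnePoint ℂ) : recip (recip p) = p := by
  induction p using OnePoint.rec with
  | infty => rw [recip_infty, recip_coe_zero]
  | coe z =>
    by_cases hz : z = 0
    · subst hz; rw [recip_coe_zero, recip_infty]
    · rw [recip_coe hz, recip_coe (inv_ne_zero hz), inv_inv]

lemma tendsto_inv_nhds_zero_infty :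
    Tendsto (fun z : ℂ => recip (z : OnePoint ℂ)) (𝓝 0) (𝓝 ∞) := by
  rw [← nhdsNE_sup_pure (0 : ℂ)]
  refine Tendsto.sup ?_ ?_
  · have h1 : Tendsto (fun z : ℂ => z⁻¹) (𝓝[≠] 0) (coclosedCompact ℂ) := by
      rw [coclosedCompact_eq_cocompact, ← Metric.cobounded_eq_cocompact]
      exact tendsto_inv₀_nhdsNE_zero
    have h2 := tendsto_coe_infty.comp h1
    refine h2.congr' ?_
    filter_upwards [self_mem_nhdsWithin] with z hz
    simp only [Function.comp]
    rw [recip_coe hz]
  · rw [tendsto_pure_left]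
    intro s hs
    rw [recip_coe_zero]
    exact mem_of_mem_nhds hs

lemma continuous_recip : Continuous recip := by
  rw [OnePoint.continuous_iff]
  refine ⟨?_, ?_⟩
  · rw [recip_infty]
    have h1 : Tendsto (fun z : ℂ => z⁻¹) (coclosedCompact ℂ) (𝓝 0) := by
      rw [coclosedCompact_eq_cocompact, ← Metric.cobounded_eq_cocompact]
      exact tendsto_inv₀_cobounded
    have h2 : Tendsto (fun z : ℂ => ((z⁻¹ : ℂ) : OnePoint ℂ)) (coclosedCompact ℂ)
        (𝓝 ((0 : ℂ) : OnePoint ℂ)) := (OnePoint.continuous_coe.tendsto 0).comp h1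
    refine h2.congr' ?_
    have : ({0}ᶜ : Set ℂ) ∈ coclosedCompact ℂ := by
      rw [coclosedCompact_eq_cocompact]
      exact isCompact_singleton.compl_mem_cocompact
    filter_upwards [this] with z hz
    rw [recip_coe hz]
  · rw [continuous_iff_continuousAt]
    intro z
    by_cases hz : z = 0
    · subst hz
      unfold ContinuousAt
      have := tendsto_inv_nhds_zero_infty
      rw [← recip_coe_zero] at this
      exact this
    · have h1 : ContinuousAt (fun w : ℂ => ((w⁻¹ : ℂ) : OnePoint ℂ)) z :=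
        OnePoint.continuous_coe.continuousAt.comp (continuousAt_inv₀ hz)
      refine h1.congr ?_
      filter_upwards [isOpen_ne.mem_nhds hz] with w hw
      rw [recip_coe hw]

noncomputable def recipHomeo : OnePoint ℂ ≃ₜ OnePoint ℂ where
  toFun := recip
  invFun := recip
  left_inv := recip_recip
  right_inv := recip_recip
  continuous_toFun := continuous_recip
  continuous_invFun := continuous_recip

lemma isOpenEmbedding_chart {φ : ℂ → OnePoint ℂ} (hφ : φ ∈ charts) : IsOpenEmbedding φ := by
  rcases hφ with rfl | rfl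
  · exact OnePoint.isOpenEmbedding_coe
  · exact recipHomeo.isOpenEmbedding.comp OnePoint.isOpenEmbedding_coe

lemma exists_chart (p : OnePoint ℂ) : ∃ φ ∈ charts, ∃ a : ℂ, φ a = p := by
  induction p using OnePoint.rec with
  | infty => exact ⟨_, Or.inr rfl, 0, recip_coe_zero⟩
  | coe z => exact ⟨_, Or.inl rfl, z, rfl⟩

lemma HolAt.continuousAt {f : OnePoint ℂ → OnePoint ℂ} {p : OnePoint ℂ} (h : HolAt f p) :
    ContinuousAt f p := by
  obtain ⟨φ, hφ, ψ, hψ, a, g, rfl, hg, hev⟩ := h
  have hφe := isOpenEmbedding_chart hφ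
  have hψe := isOpenEmbedding_chart hψ
  have h1 : ContinuousAt (fun z => f (φ z)) a :=
    ContinuousAt.congr (hψe.continuous.continuousAt.comp hg.continuousAt)
      (by filter_upwards [hev] with z hz; exact hz.symm)
  rw [ContinuousAt, ← hφe.map_nhds_eq, tendsto_map'_iff]
  exact h1

lemma HolAt.nhds_le {f : OnePoint ℂ → OnePoint ℂ} {G : Set (OnePoint ℂ)} {p : OnePoint ℂ}
    (hG : G ∈ 𝓝 p) (hf : InjOn f G) (h : HolAt f p) : 𝓝 (f p) ≤ map f (𝓝 p) := by
  obtain ⟨φ, hφ, ψ, hψ, a, g, rfl, hg, hev⟩ := h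
  have hφe := isOpenEmbedding_chart hφ
  have hψe := isOpenEmbedding_chart hψ
  rcases hg.eventually_constant_or_nhds_le_map_nhds with hc | hle
  · exfalso
    have hG' : φ ⁻¹' G ∈ 𝓝 a := hφe.continuous.continuousAt hG
    have h3 : ∀ᶠ z in 𝓝 a, z = a := by
      filter_upwards [hc, hev, hG'] with z h1 h2 h4
      apply hφe.injective
      apply hf h4 (mem_of_mem_nhds hG)
      rw [h2, hev.self_of_nhds, h1]
    have h5 : (𝓝[≠] a).NeBot := inferInstance
    have h6 : ∀ᶠ z in 𝓝[≠] a, z = a := h3.filter_mono nhdsWithin_le_nhds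
    have h7 : ∀ᶠ z in 𝓝[≠] a, z ≠ a := self_mem_nhdsWithin
    obtain ⟨z, h8, h9⟩ := (h6.and h7).exists
    exact h9 h8
  · have h1 : f (φ a) = ψ (g a) := hev.self_of_nhds
    rw [h1, ← hψe.map_nhds_eq, ← hφe.map_nhds_eq, map_map]
    calc map ψ (𝓝 (g a)) ≤ map ψ (map g (𝓝 a)) := map_mono hle
      _ = map (f ∘ φ) (𝓝 a) := by
        rw [map_map]
        exact map_congr (by filter_upwards [hev] with z hz; exact hz.symm)

lemma isOpen_image_of_holAt {f : OnePoint ℂ → OnePoint ℂ} {G U : Set (OnePoint ℂ)}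
    (hG : IsOpen G) (hf : InjOn f G) (h : ∀ p ∈ G, HolAt f p) (hU : IsOpen U) (hUG : U ⊆ G) :
    IsOpen (f '' U) := by
  rw [isOpen_iff_mem_nhds]
  rintro _ ⟨p, hp, rfl⟩
  exact (h p (hUG hp)).nhds_le (hG.mem_nhds (hUG hp)) hf (image_mem_map (hU.mem_nhds hp))

lemma continuousOn_of_holAt {f : OnePoint ℂ → OnePoint ℂ} {G : Set (OnePoint ℂ)}
    (h : ∀ p ∈ G, HolAt f p) : ContinuousOn f G :=
  fun p hp => (h p hp).continuousAt.continuousWithinAt

/-- image of a totally disconnected subset is totally disconnected -/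
lemma isTotallyDisconnected_image {f : OnePoint ℂ → OnePoint ℂ} {G E : Set (OnePoint ℂ)}
    (hG : IsOpen G) (hf : InjOn f G) (h : ∀ p ∈ G, HolAt f p) (hEG : E ⊆ G)
    (hE : IsTotallyDisconnected E) : IsTotallyDisconnected (f '' E) := by
  intro t ht htp
  have htG : t ⊆ f '' G := ht.trans (image_mono hEG)
  set k := Function.invFunOn f G with hk
  have hkl : ∀ x ∈ G, k (f x) = x := fun x hx => hf.leftInvOn_invFunOn hx
  have hkc : ContinuousOn k (f '' G) := by
    rw [continuousOn_iff']
    intro U hU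
    refine ⟨f '' (U ∩ G), isOpen_image_of_holAt hG hf h (hU.inter hG) inter_subset_right, ?_⟩
    ext y
    constructor
    · rintro ⟨hy1, x, hx, rfl⟩
      refine ⟨⟨x, ⟨?_, hx⟩, rfl⟩, x, hx, rfl⟩
      have := hy1
      rw [mem_preimage, hkl x hx] at this
      exact this
    · rintro ⟨⟨x, ⟨hxU, hxG⟩, rfl⟩, -⟩
      refine ⟨?_, x, hxG, rfl⟩
      rw [mem_preimage, hkl x hxG]
      exact hxU
  have h1 : IsPreconnected (k '' t) := htp.image k (hkc.mono htG)
  have h2 : k '' t ⊆ E := by
    rintro _ ⟨y, hy, rfl⟩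
    obtain ⟨x, hx, rfl⟩ := ht hy
    rw [hkl x (hEG hx)]
    exact hx
  have h3 : (k '' t).Subsingleton := hE _ h2 h1
  intro y hy z hz
  obtain ⟨x, hx, rfl⟩ := ht hy
  obtain ⟨w, hw, rfl⟩ := ht hz
  have := h3 (mem_image_of_mem k hy) (mem_image_of_mem k hz)
  rw [hkl x (hEG hx), hkl w (hEG hw)] at this
  rw [this]

section Topo

variable {X : Type*} [TopologicalSpace X] [CompactSpace X] [T2Space X]

/-- Key topological lemma: a point of a totally disconnected set `F` disjoint from the closed set
`A`, with `A ∪ F` closed, is a component of `A ∪ F`. -/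
lemma component_singleton {A F : Set X} (hA : IsClosed A) (hAF : IsClosed (A ∪ F))
    (hdis : Disjoint A F) (hF : IsTotallyDisconnected F) {x : X} (hx : x ∈ F) :
    connectedComponentIn (A ∪ F) x = {x} := by
  have hxAF : x ∈ A ∪ F := Or.inr hx
  set C := connectedComponentIn (A ∪ F) x with hC
  have hCsub : C ⊆ A ∪ F := connectedComponentIn_subset _ _
  have hxC : x ∈ C := mem_connectedComponentIn hxAF
  have hCpre : IsPreconnected C := isPreconnected_connectedComponentIn
  have hCcl : IsClosed C := by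
    apply isClosed_of_closure_subset
    exact hCpre.closure.subset_connectedComponentIn (subset_closure hxC)
      (closure_minimal hCsub hAF)
  apply Subset.antisymm _ (singleton_subset_iff.2 hxC)
  intro y hy
  by_contra hne
  have hne' : y ≠ x := hne
  -- choose `U`
  have hxA : x ∉ A := fun h => (disjoint_left.1 hdis) h hx
  have hO : IsOpen (Aᶜ ∩ {y}ᶜ) := hA.isOpen_compl.inter isOpen_compl_singleton
  have hxO : x ∈ Aᶜ ∩ {y}ᶜ := ⟨hxA, fun h => hne' (mem_singleton_iff.1 h).symm⟩
  obtain ⟨T, hT1, hT2, hT3⟩ := exists_mem_nhds_isClosed_subset (hO.mem_nhds hxO)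
  set U : Set X := interior T with hUdef
  have hUo : IsOpen U := isOpen_interior
  have hxU : x ∈ U := mem_interior_iff_mem_nhds.2 hT1
  have hUcl : closure U ⊆ Aᶜ ∩ {y}ᶜ :=
    (closure_minimal interior_subset hT2).trans hT3
  set B := C ∩ closure U with hB
  have hBF : B ⊆ F := by
    rintro z ⟨hz1, hz2⟩
    rcases hCsub hz1 with h | h
    · exact absurd h (hUcl hz2).1
    · exact h
  have hBc : IsCompact B := (hCcl.inter isClosed_closure).isCompact
  have hBt : IsTotallyDisconnected B := fun t ht htp => hF t (ht.trans hBF) htp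
  have : CompactSpace B := isCompact_iff_compactSpace.1 hBc
  have : TotallyDisconnectedSpace B := totallyDisconnectedSpace_subtype_iff.2 hBt
  have hxB : x ∈ B := ⟨hxC, subset_closure hxU⟩
  obtain ⟨V, hVc, hxV, hVU⟩ := compact_exists_isClopen_in_isOpen
    (X := B) (x := ⟨x, hxB⟩) (U := Subtype.val ⁻¹' U)
    (hUo.preimage continuous_subtype_val) hxU
  obtain ⟨O, hO1, hO2⟩ := isOpen_induced_iff.1 hVc.isOpen
  set V' : Set X := Subtype.val '' V with hV'
  have hV'cl : IsClosed V' := (hVc.isClosed.isCompact.image continuous_subtype_val).isClosed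
  have hV'eq : V' = (O ∩ U) ∩ C := by
    ext z
    constructor
    · rintro ⟨z', hz', rfl⟩
      refine ⟨⟨?_, hVU hz'⟩, z'.2.1⟩
      rw [← hO2] at hz'
      exact hz'
    · rintro ⟨⟨hz1, hz2⟩, hz3⟩
      have hzB : z ∈ B := ⟨hz3, subset_closure hz2⟩
      refine ⟨⟨z, hzB⟩, ?_, rfl⟩
      rw [← hO2]
      exact hz1
  have hsub := isPreconnected_iff_subset_of_disjoint.1 hCpre (O ∩ U) V'ᶜ (hO1.inter hUo)
    hV'cl.isOpen_compl ?_ ?_
  · rcases hsub with h | h
    · exact (hUcl (subset_closure (h hy).2)).2 rfl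
    · exact h hxC ⟨⟨x, hxB⟩, hxV, rfl⟩
  · intro z hz
    by_cases hzz : z ∈ V'
    · left
      rw [hV'eq] at hzz
      exact hzz.1
    · right
      exact hzz
  · ext z
    constructor
    · rintro ⟨h1, h2, h3⟩
      apply h3
      rw [hV'eq]
      exact ⟨h2, h1⟩
    · intro h
      exact absurd h (notMem_empty z)

lemma component_eq {A F : Set X} (hA : IsClosed A) (hAF : IsClosed (A ∪ F))
    (hdis : Disjoint A F) (hF : IsTotallyDisconnected F) {x : X} (hx : x ∈ A) :
    connectedComponentIn (A ∪ F) x = connectedComponentIn A x := by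
  have hxAF : x ∈ A ∪ F := Or.inl hx
  apply Subset.antisymm
  · apply IsPreconnected.subset_connectedComponentIn isPreconnected_connectedComponentIn
      (mem_connectedComponentIn hxAF)
    intro y hy
    rcases connectedComponentIn_subset _ _ hy with h | h
    · exact h
    · exfalso
      have h1 : connectedComponentIn (A ∪ F) x = connectedComponentIn (A ∪ F) y :=
        connectedComponentIn_eq hy
      rw [component_singleton hA hAF hdis hF h] at h1
      have h2 : x ∈ ({y} : Set X) := h1 ▸ mem_connectedComponentIn hxAF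
      rw [mem_singleton_iff] at h2
      subst h2
      exact disjoint_left.1 hdis hx h
  · exact connectedComponentIn_mono x subset_union_left

end Topo

/-- Removing a relatively closed totally disconnected set from a domain which is conformally
equivalent to a circle domain. -/
theorem isKoebe_of_superset {G G' : Set (OnePoint ℂ)} (hG : IsOpen G) (hG' : IsDom G')
    (hsub : G' ⊆ G) (hE : IsTotallyDisconnected (G \ G')) (hK : IsKoebe G) : IsKoebe G' := by
  obtain ⟨H, ⟨⟨hHo, hHc⟩, hHcomp⟩, f, hbij, hhol⟩ := hK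
  have hinj := hbij.injOn
  have hcont := continuousOn_of_holAt hhol
  have hopen : IsOpen (f '' G') := isOpen_image_of_holAt hG hinj hhol hG'.1 hsub
  have hFt : IsTotallyDisconnected (f '' (G \ G')) :=
    isTotallyDisconnected_image hG hinj hhol sdiff_subset hE
  have hcompl : (f '' G')ᶜ = Hᶜ ∪ f '' (G \ G') := by
    ext y
    constructor
    · intro hy
      by_cases hyH : y ∈ H
      · right
        rw [← hbij.image_eq] at hyH
        obtain ⟨x, hx, rfl⟩ := hyH
        refine ⟨x, ⟨hx, fun h => hy ⟨x, h, rfl⟩⟩, rfl⟩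
      · left
        exact hyH
    · rintro (hy | ⟨x, hx, rfl⟩)
      · rintro ⟨x, hx, rfl⟩
        exact hy (hbij.mapsTo (hsub hx))
      · rintro ⟨x', hx', he⟩
        have := hinj (hsub hx') hx.1 he
        subst this
        exact hx.2 hx'
  have hdis : Disjoint Hᶜ (f '' (G \ G')) := by
    rw [disjoint_left]
    rintro _ h1 ⟨x, hx, rfl⟩
    exact h1 (hbij.mapsTo hx.1)
  have hclosed : IsClosed (Hᶜ ∪ f '' (G \ G')) := by
    rw [← hcompl]; exact hopen.isClosed_compl
  refine ⟨f '' G', ⟨⟨hopen, hG'.2.image f (hcont.mono hsub)⟩, ?_⟩, f, ?_, fun p hp => hhol p (hsub hp)⟩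
  · intro p hp
    unfold comp
    rw [hcompl]
    rw [hcompl] at hp
    rcases hp with hp | hp
    · rw [component_eq hHo.isClosed_compl hclosed hdis hFt hp]
      exact hHcomp p hp
    · left
      exact component_singleton hHo.isClosed_compl hclosed hdis hFt hp
  · exact (hinj.mono hsub).bijOn_image

lemma exists_connected_nontrivial {U : Set (OnePoint ℂ)} (hU : IsOpen U) {p : OnePoint ℂ}
    (hp : p ∈ U) : ∃ C ⊆ U, IsPreconnected C ∧ p ∈ C ∧ C.Nontrivial := by
  obtain ⟨φ, hφ, a, rfl⟩ := exists_chart p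
  have hφe := isOpenEmbedding_chart hφ
  have h1 : φ ⁻¹' U ∈ 𝓝 a := (hU.preimage hφe.continuous).mem_nhds hp
  obtain ⟨ε, hε, hball⟩ := Metric.mem_nhds_iff.1 h1
  refine ⟨φ '' Metric.ball a ε, image_subset_iff.2 hball, ?_, ⟨a, Metric.mem_ball_self hε, rfl⟩, ?_⟩
  · exact (convex_ball a ε).isPreconnected.image φ hφe.continuous.continuousOn
  · apply Set.Nontrivial.image _ hφe.injective
    refine ⟨a, Metric.mem_ball_self hε, a + (ε / 2 : ℝ), ?_, ?_⟩
    · rw [Metric.mem_ball, dist_eq_norm]
      simp only [add_sub_cancel_left, Complex.norm_real, Real.norm_eq_abs]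
      rw [abs_of_pos (by positivity)]
      linarith
    · intro h
      have : ((ε / 2 : ℝ) : ℂ) = 0 := by
        have h' := h.symm
        rwa [add_eq_left] at h'
      rw [Complex.ofReal_eq_zero] at this
      linarith

lemma comp_eq_of_mem {G : Set (OnePoint ℂ)} {p q : OnePoint ℂ} (h : q ∈ comp G p) :
    comp G p = comp G q := connectedComponentIn_eq h

lemma comp_subset_nondeg {G : Set (OnePoint ℂ)} {p : OnePoint ℂ} (hp : p ∈ nondeg G) :
    comp G p ⊆ nondeg G := by
  intro q hq
  refine ⟨connectedComponentIn_subset _ _ hq, ?_⟩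
  rw [← comp_eq_of_mem hq]
  exact hp.2

lemma subset_fillDom {G : Set (OnePoint ℂ)} (hG : IsOpen G) : G ⊆ fillDom G := by
  intro p hp hcl
  have : closure (nondeg G) ⊆ Gᶜ :=
    closure_minimal (fun q hq => hq.1) hG.isClosed_compl
  exact this hcl hp

lemma totallyDisconnected_fillDom_diff (G : Set (OnePoint ℂ)) :
    IsTotallyDisconnected (fillDom G \ G) := by
  intro t ht htp x hx y hy
  have h1 : t ⊆ comp G x :=
    htp.subset_connectedComponentIn hx (fun z hz => (ht hz).2)
  by_contra hne
  apply (ht hx).1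
  apply subset_closure
  exact ⟨(ht hx).2, ⟨x, h1 hx, y, h1 hy, hne⟩⟩

lemma isDom_fillDom {G : Set (OnePoint ℂ)} (hG : IsDom G) : IsDom (fillDom G) := by
  refine ⟨isClosed_closure.isOpen_compl, ?_⟩
  apply hG.2.subset_closure (subset_fillDom hG.1)
  intro p hp
  by_contra hcl
  have hU : IsOpen ((closure G)ᶜ ∩ fillDom G) :=
    isClosed_closure.isOpen_compl.inter isClosed_closure.isOpen_compl
  obtain ⟨C, hCU, hCp, hpC, hCn⟩ := exists_connected_nontrivial hU ⟨hcl, hp⟩
  have hCE : C ⊆ fillDom G \ G := fun z hz =>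
    ⟨(hCU hz).2, fun hzG => (hCU hz).1 (subset_closure hzG)⟩
  have := totallyDisconnected_fillDom_diff G C hCE hCp
  exact hCn.not_subsingleton this

lemma compl_fillDom (G : Set (OnePoint ℂ)) : (fillDom G)ᶜ = closure (nondeg G) := compl_compl _

lemma nondeg_subset_nondeg_fillDom (G : Set (OnePoint ℂ)) : nondeg G ⊆ nondeg (fillDom G) := by
  intro p hp
  refine ⟨?_, ?_⟩
  · rw [compl_fillDom]; exact subset_closure hp
  · have hsub : comp G p ⊆ comp (fillDom G) p := by
      unfold comp
      apply IsPreconnected.subset_connectedComponentIn isPreconnected_connectedComponentIn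
        (mem_connectedComponentIn hp.1)
      rw [compl_fillDom]
      exact (comp_subset_nondeg hp).trans subset_closure
    exact hp.2.mono hsub

lemma dense_fillDom (G : Set (OnePoint ℂ)) : (fillDom G)ᶜ ⊆ closure (nondeg (fillDom G)) := by
  rw [compl_fillDom]
  exact closure_mono (nondeg_subset_nondeg_fillDom G)

theorem isKoebe_of_fillDom {G : Set (OnePoint ℂ)} (hG : IsDom G) (h : IsKoebe (fillDom G)) :
    IsKoebe G :=
  isKoebe_of_superset (isDom_fillDom hG).1 hG (subset_fillDom hG.1)
    (totallyDisconnected_fillDom_diff G) h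

end Vale.Agent.P116
end
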